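import Mathlib

/-!
# The thermal amplitude, definitions and the integration by parts in the amplitude variable

`al η t` is `1 + t` clipped to `[1 - η, 1 + η]`; the thermal variable `t` has the two-sided
exponential law `lap lam` (density `lam/2 * exp (-lam |t|)`).
-/

open MeasureTheory Set Filter Topology

namespace Vale.Agent.P146.H475

/-- the amplitude: `1 + t` clipped to `[1-η, 1+η]` -/
noncomputable def al (η t : ℝ) : ℝ := 1 + max (-η) (min η t)

/-- the density of the law of the thermal variable -/
noncomputable def lapd (lam t : ℝ) : ℝ := lam / 2 * Real.exp (-(lam * |t|))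

/-- the law of the thermal variable: two-sided exponential law with parameter `lam` -/
noncomputable def lap (lam : ℝ) : Measure ℝ :=
  volume.withDensity fun t => ENNReal.ofReal (lapd lam t)

lemma al_mem {η : ℝ} (hη : 0 ≤ η) (t : ℝ) : al η t ∈ Icc (1 - η) (1 + η) := by
  unfold al
  constructor
  · have := le_max_left (-η) (min η t); linarith
  · have : max (-η) (min η t) ≤ η := max_le (by linarith) (min_le_left _ _)
    linarith

lemma abs_al_sub {η : ℝ} (hη : 0 ≤ η) (t : ℝ) : |al η t - 1| ≤ η := by
  have := al_mem hη t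
  rw [abs_le]; constructor <;> linarith [this.1, this.2]

lemma al_zero {η : ℝ} (hη : 0 ≤ η) : al η 0 = 1 := by
  unfold al
  rw [min_eq_right hη, max_eq_right (by linarith)]; ring

lemma al_of_abs {η t : ℝ} (h : |t| ≤ η) : al η t = 1 + t := by
  unfold al
  rw [abs_le] at h
  rw [min_eq_right h.2, max_eq_right h.1]

lemma al_of_le {η t : ℝ} (hη : 0 ≤ η) (h : η ≤ t) : al η t = 1 + η := by
  unfold al
  rw [min_eq_left h, max_eq_right (by linarith)]

lemma al_of_ge {η t : ℝ} (hη : 0 ≤ η) (h : t ≤ -η) : al η t = 1 - η := by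
  unfold al
  rw [min_eq_right (by linarith), max_eq_left h]; ring

lemma continuous_al (η : ℝ) : Continuous (al η) := by
  unfold al
  fun_prop

lemma measurable_al (η : ℝ) : Measurable (al η) := (continuous_al η).measurable

lemma continuous_lapd (lam : ℝ) : Continuous (lapd lam) := by
  unfold lapd
  fun_prop

lemma lapd_nonneg {lam : ℝ} (h : 0 ≤ lam) (t : ℝ) : 0 ≤ lapd lam t := by
  unfold lapd; positivity

lemma lapd_neg (lam t : ℝ) : lapd lam (-t) = lapd lam t := by
  unfold lapd; rw [abs_neg]

/-- integrals against the law -/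
lemma integral_lap {lam : ℝ} (h : 0 ≤ lam) (f : ℝ → ℝ) :
    ∫ t, f t ∂(lap lam) = ∫ t, lapd lam t * f t := by
  unfold lap
  rw [integral_withDensity_eq_integral_toReal_smul
    ((continuous_lapd lam).measurable.ennreal_ofReal) (by simp)]
  refine integral_congr_ae (Eventually.of_forall fun t => ?_)
  simp only [smul_eq_mul]
  rw [ENNReal.toReal_ofReal (lapd_nonneg h t)]

lemma integrableOn_exp_Ioi {lam : ℝ} (h : 0 < lam) (c : ℝ) :
    IntegrableOn (fun t => lam / 2 * Real.exp (-(lam * t))) (Ioi c) := by
  have := (integrableOn_exp_mul_Ioi (a := -lam) (by linarith) c).const_mul (lam / 2)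
  refine this.congr (Eventually.of_forall fun t => ?_)
  simp only
  congr 2
  ring

lemma integral_exp_Ioi {lam : ℝ} (h : 0 < lam) (c : ℝ) :
    ∫ t in Ioi c, lam / 2 * Real.exp (-(lam * t)) = Real.exp (-(lam * c)) / 2 := by
  have h1 := integral_exp_mul_Ioi (a := -lam) (by linarith) c
  have h2 : (fun t : ℝ => lam / 2 * Real.exp (-(lam * t))) =
      fun t => lam / 2 * Real.exp (-lam * t) := by
    funext t; congr 2; ring
  rw [h2, integral_const_mul, h1]
  have : lam ≠ 0 := h.ne'
  rw [show -lam * c = -(lam * c) by ring]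
  field_simp

lemma lapd_eqOn (lam : ℝ) : EqOn (lapd lam) (fun t => lam / 2 * Real.exp (-(lam * t)))
    (Ioi 0) := by
  intro t ht
  unfold lapd
  simp only
  rw [abs_of_pos ht]

lemma integrableOn_lapd_Ioi {lam : ℝ} (h : 0 < lam) : IntegrableOn (lapd lam) (Ioi 0) :=
  (integrableOn_exp_Ioi h 0).congr_fun (fun t ht => (lapd_eqOn lam ht).symm) measurableSet_Ioi

lemma integrable_of_half {f : ℝ → ℝ} (h1 : IntegrableOn f (Ioi 0))
    (h2 : IntegrableOn (fun t => f (-t)) (Ioi 0)) : Integrable f := by
  have a1 : Integrable (indicator (Ioi 0) f) := (integrable_indicator_iff measurableSet_Ioi).2 h1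
  have a2 : Integrable (indicator (Ioi 0) fun t => f (-t)) :=
    (integrable_indicator_iff measurableSet_Ioi).2 h2
  have a3 := a2.comp_neg
  refine (a1.add a3).congr ?_
  have h0 : ∀ᵐ t : ℝ, t ≠ 0 := by
    rw [ae_iff]
    simp
  filter_upwards [h0] with t ht
  simp only [Pi.add_apply, indicator, mem_Ioi, neg_neg]
  rcases lt_trichotomy t 0 with h | h | h
  · rw [if_neg (by linarith), if_pos (by linarith), zero_add]
  · exact (ht h).elim
  · rw [if_pos h, if_neg (by linarith), add_zero]

lemma integral_half {f : ℝ → ℝ} (h : Integrable f) :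
    ∫ t, f t = ∫ t in Ioi 0, (f t + f (-t)) := by
  have h2 : IntegrableOn (fun t => f (-t)) (Ioi 0) := h.comp_neg.integrableOn
  rw [integral_add h.integrableOn h2, integral_comp_neg_Ioi, neg_zero, add_comm,
    intervalIntegral.integral_Iic_add_Ioi h.integrableOn h.integrableOn]

lemma integrable_lapd {lam : ℝ} (h : 0 < lam) : Integrable (lapd lam) := by
  refine integrable_of_half (integrableOn_lapd_Ioi h) ?_
  simp only [lapd_neg]
  exact integrableOn_lapd_Ioi h

lemma integral_lapd {lam : ℝ} (h : 0 < lam) : ∫ t, lapd lam t = 1 := by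
  rw [integral_half (integrable_lapd h)]
  simp only [lapd_neg]
  have : ∀ t, lapd lam t + lapd lam t = 2 * lapd lam t := fun t => by ring
  simp only [this]
  rw [integral_const_mul, setIntegral_congr_fun measurableSet_Ioi (lapd_eqOn lam),
    integral_exp_Ioi h]
  simp

lemma lap_univ {lam : ℝ} (h : 0 < lam) : lap lam univ = 1 := by
  unfold lap
  rw [withDensity_apply _ MeasurableSet.univ, Measure.restrict_univ,
    ← ofReal_integral_eq_lintegral_ofReal (integrable_lapd h)
      (Eventually.of_forall fun t => lapd_nonneg h.le t), integral_lapd h]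
  simp

theorem isProb_lap {lam : ℝ} (h : 0 < lam) : IsProbabilityMeasure (lap lam) := ⟨lap_univ h⟩

lemma integrable_lap {lam : ℝ} (h : 0 < lam) {f : ℝ → ℝ} (hf : Measurable f) {C : ℝ}
    (hC : ∀ t, |f t| ≤ C) : Integrable (fun t => lapd lam t * f t) := by
  refine (integrable_lapd h).mul_bdd (c := C) hf.aestronglyMeasurable
    (Eventually.of_forall fun t => ?_)
  rw [Real.norm_eq_abs]
  exact hC t

/-- half-line integration by parts: for `W` of class `C¹`,
`∫_0^η (λ/2) e^{-λt} W'(t) dt = λ ∫_0^∞ (λ/2) e^{-λt} W(min η t) dt - (λ/2) W 0`. -/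
lemma ibp_half {lam η : ℝ} (h : 0 < lam) (hη : 0 ≤ η) {W W' : ℝ → ℝ}
    (hW : ∀ t, HasDerivAt W (W' t) t) (hc : Continuous W') :
    ∫ t in Ioi 0, (if t < η then lapd lam t * W' t else 0) =
      lam * (∫ t in Ioi 0, lapd lam t * W (min η t)) - lam / 2 * W 0 := by
  have hWc : Continuous W := continuous_iff_continuousAt.2 fun t => (hW t).continuousAt
  -- left side as an interval integral
  have e1 : ∫ t in Ioi 0, (if t < η then lapd lam t * W' t else 0) =
      ∫ t in (0 : ℝ)..η, lam / 2 * Real.exp (-(lam * t)) * W' t := by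
    rw [intervalIntegral.integral_of_le hη, integral_Ioc_eq_integral_Ioo]
    have a1 : (fun t => if t < η then lapd lam t * W' t else 0) =
        indicator (Iio η) (fun t => lapd lam t * W' t) := by
      funext t
      simp [indicator]
    rw [a1, setIntegral_indicator measurableSet_Iio, Ioi_inter_Iio]
    refine setIntegral_congr_fun measurableSet_Ioo fun t ht => ?_
    rw [lapd_eqOn lam (show t ∈ Ioi 0 from ht.1)]
  -- integration by parts
  have e2 : ∫ t in (0 : ℝ)..η, lam / 2 * Real.exp (-(lam * t)) * W' t =
      lam / 2 * Real.exp (-(lam * η)) * W η - lam / 2 * W 0 -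
        ∫ t in (0 : ℝ)..η, (-lam * (lam / 2 * Real.exp (-(lam * t)))) * W t := by
    have hd : ∀ x ∈ uIcc 0 η, HasDerivAt (fun t => lam / 2 * Real.exp (-(lam * t)))
        (-lam * (lam / 2 * Real.exp (-(lam * x)))) x := by
      intro x _
      have := (((hasDerivAt_id x).const_mul lam).neg.exp).const_mul (lam / 2)
      refine this.congr_deriv ?_
      simp only [id, Pi.neg_apply]
      ring
    have := intervalIntegral.integral_mul_deriv_eq_deriv_mul hd (fun x _ => hW x)
      (Continuous.intervalIntegrable (by fun_prop) _ _) (hc.intervalIntegrable _ _)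
    rw [this]
    simp
  -- the right side
  have i1 : IntegrableOn (fun t => lapd lam t * W (min η t)) (Ioc 0 η) := by
    refine (Continuous.integrableOn_Icc ?_).mono_set Ioc_subset_Icc_self
    exact (continuous_lapd lam).mul (hWc.comp (by fun_prop))
  have i2 : IntegrableOn (fun t => lapd lam t * W (min η t)) (Ioi η) := by
    have a : IntegrableOn (fun t => lam / 2 * Real.exp (-(lam * t)) * W η) (Ioi η) :=
      (integrableOn_exp_Ioi h η).mul_const _
    refine a.congr_fun (fun t ht => ?_) measurableSet_Ioi
    simp only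
    rw [min_eq_left (le_of_lt ht), lapd_eqOn lam (show t ∈ Ioi 0 from lt_of_le_of_lt hη ht)]
  have e3 : ∫ t in Ioi 0, lapd lam t * W (min η t) =
      (∫ t in (0 : ℝ)..η, lam / 2 * Real.exp (-(lam * t)) * W t) +
        Real.exp (-(lam * η)) / 2 * W η := by
    rw [← Ioc_union_Ioi_eq_Ioi hη, setIntegral_union (Ioc_disjoint_Ioi le_rfl) measurableSet_Ioi
      i1 i2]
    congr 1
    · rw [intervalIntegral.integral_of_le hη]
      refine setIntegral_congr_fun measurableSet_Ioc fun t ht => ?_
      rw [min_eq_right ht.2, lapd_eqOn lam (show t ∈ Ioi 0 from ht.1)]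
    · rw [← integral_exp_Ioi h η, ← integral_mul_const]
      refine setIntegral_congr_fun measurableSet_Ioi fun t ht => ?_
      rw [min_eq_left (le_of_lt ht), lapd_eqOn lam (show t ∈ Ioi 0 from lt_of_le_of_lt hη ht)]
  rw [e1, e2, e3]
  have e4 : ∫ t in (0 : ℝ)..η, (-lam * (lam / 2 * Real.exp (-(lam * t)))) * W t =
      -lam * ∫ t in (0 : ℝ)..η, lam / 2 * Real.exp (-(lam * t)) * W t := by
    rw [← intervalIntegral.integral_const_mul]
    refine intervalIntegral.integral_congr fun t _ => ?_
    ring
  rw [e4]
  ring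

/-- the sign of the thermal variable -/
noncomputable def sg (t : ℝ) : ℝ := if 0 < t then 1 else -1

lemma abs_sg (t : ℝ) : |sg t| = 1 := by
  unfold sg
  split_ifs <;> simp

lemma measurable_sg : Measurable sg := by
  unfold sg
  exact Measurable.ite measurableSet_Ioi measurable_const measurable_const

/-- the indicator of the region where the amplitude moves -/
noncomputable def ins (η t : ℝ) : ℝ := if |t| < η then 1 else 0

lemma ins_nonneg (η t : ℝ) : 0 ≤ ins η t := by unfold ins; split_ifs <;> norm_num
lemma ins_le (η t : ℝ) : ins η t ≤ 1 := by unfold ins; split_ifs <;> norm_num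

lemma measurable_ins (η : ℝ) : Measurable (ins η) := by
  unfold ins
  exact Measurable.ite (measurableSet_lt (by fun_prop) measurable_const) measurable_const
    measurable_const

/-- **Integration by parts in the thermal amplitude.** -/
theorem ibp_amp {lam η : ℝ} (h : 0 < lam) (hη : 0 ≤ η) {W W' : ℝ → ℝ}
    (hW : ∀ a, HasDerivAt W (W' a) a) (hc : Continuous W') :
    ∫ t, ins η t * W' (al η t) ∂(lap lam) = lam * ∫ t, sg t * W (al η t) ∂(lap lam) := by
  have hWc : Continuous W := continuous_iff_continuousAt.2 fun t => (hW t).continuousAt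
  -- boundedness on the range of `al`
  have bd : ∀ V : ℝ → ℝ, Continuous V → ∃ C, ∀ t, |V (al η t)| ≤ C := by
    intro V hV
    obtain ⟨C, hC⟩ := (isCompact_Icc (a := 1 - η) (b := 1 + η)).exists_bound_of_continuousOn
      hV.continuousOn
    exact ⟨C, fun t => by simpa using hC _ (al_mem hη t)⟩
  obtain ⟨C, hC⟩ := bd W hWc
  obtain ⟨C', hC'⟩ := bd W' hc
  rw [integral_lap h.le, integral_lap h.le]
  have j1 : Integrable fun t => lapd lam t * (ins η t * W' (al η t)) := by
    refine integrable_lap h ((measurable_ins η).mul (hc.measurable.comp (measurable_al η)))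
      (C := C') fun t => ?_
    rw [abs_mul, abs_of_nonneg (ins_nonneg η t)]
    calc ins η t * |W' (al η t)| ≤ 1 * |W' (al η t)| :=
          mul_le_mul_of_nonneg_right (ins_le η t) (abs_nonneg _)
      _ ≤ C' := by rw [one_mul]; exact hC' t
  have j2 : Integrable fun t => lapd lam t * (sg t * W (al η t)) := by
    refine integrable_lap h (measurable_sg.mul (hWc.measurable.comp (measurable_al η)))
      (C := C) fun t => ?_
    rw [abs_mul, abs_sg, one_mul]
    exact hC t
  rw [integral_half j1, integral_half j2]
  have k1 := ibp_half h hη (W := fun t => W (1 + t)) (W' := fun t => W' (1 + t))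
    (fun t => by simpa using (hW (1 + t)).comp_const_add 1 t) (hc.comp (by fun_prop))
  have k2 := ibp_half h hη (W := fun t => W (1 - t)) (W' := fun t => -W' (1 - t))
    (fun t => by simpa using (hW (1 - t)).comp_const_sub 1 t) ((hc.comp (by fun_prop)).neg)
  -- the four half-line integrals
  have n1 : ∫ t in Ioi 0, (lapd lam t * (ins η t * W' (al η t)) +
      lapd lam (-t) * (ins η (-t) * W' (al η (-t)))) =
      (∫ t in Ioi 0, (if t < η then lapd lam t * W' (1 + t) else 0)) -
        ∫ t in Ioi 0, (if t < η then lapd lam t * -W' (1 - t) else 0) := by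
    rw [integral_add j1.integrableOn j1.comp_neg.integrableOn, sub_eq_add_neg, ← integral_neg]
    congr 1
    · refine setIntegral_congr_fun measurableSet_Ioi fun t ht => ?_
      have ht' : |t| = t := abs_of_pos ht
      unfold ins
      simp only [ht']
      split_ifs with h1
      · rw [al_of_abs (by rw [ht']; exact h1.le), one_mul]
      · simp
    · refine setIntegral_congr_fun measurableSet_Ioi fun t ht => ?_
      have ht' : |t| = t := abs_of_pos ht
      unfold ins
      simp only [abs_neg, ht', lapd_neg]
      split_ifs with h1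
      · rw [al_of_abs (by rw [abs_neg, ht']; exact h1.le), one_mul]
        rw [← sub_eq_add_neg]
        ring
      · simp
  have n2 : ∫ t in Ioi 0, (lapd lam t * (sg t * W (al η t)) +
      lapd lam (-t) * (sg (-t) * W (al η (-t)))) =
      (∫ t in Ioi 0, lapd lam t * W (1 + min η t)) -
        ∫ t in Ioi 0, lapd lam t * W (1 - min η t) := by
    rw [integral_add j2.integrableOn j2.comp_neg.integrableOn, sub_eq_add_neg, ← integral_neg]
    congr 1
    · refine setIntegral_congr_fun measurableSet_Ioi fun t ht => ?_
      have ht' : (0 : ℝ) < t := ht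
      have h1 : 0 ≤ min η t := le_min hη ht'.le
      unfold sg al
      rw [if_pos ht', one_mul, max_eq_right (by linarith)]
    · refine setIntegral_congr_fun measurableSet_Ioi fun t ht => ?_
      have ht' : (0 : ℝ) < t := ht
      have h2 : max (-η) (min η (-t)) = -min η t := by
        rw [min_eq_right (by linarith), max_neg_neg]
      unfold sg al
      rw [if_neg (by linarith), lapd_neg, h2, ← sub_eq_add_neg]
      ring
  rw [n1, n2, k1, k2]
  simp only [add_zero, sub_zero]
  ring

/-! ### the measure on amplitude × spins -/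

section muA

variable {κ J X : Type}

/-- the compensated measure on (thermal variable) × (spin configurations) -/
noncomputable def muA (X : Type) [MeasurableSpace X] (lam η c : ℝ) : Measure (ℝ × X) :=
  ((lap lam).prod Measure.count).withDensity fun p =>
    ENNReal.ofReal (Real.exp (-(c / 2 * (al η p.1 ^ 2 - 1))))

/-- the coefficients of the Gaussian coordinates: `κ` = all the plain coordinates, `J` = the
coordinates of the modulated private field -/
noncomputable def SA (S0 : κ → X → ℝ) (σ : J → X → ℝ) (s η : ℝ) : κ ⊕ J → ℝ × X → ℝ :=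
  Sum.elim (fun e p => S0 e p.2) fun j p => al η p.1 * s * σ j p.2

@[simp] lemma SA_inl (S0 : κ → X → ℝ) (σ : J → X → ℝ) (s η : ℝ) (e : κ) (p : ℝ × X) :
    SA S0 σ s η (Sum.inl e) p = S0 e p.2 := rfl

@[simp] lemma SA_inr (S0 : κ → X → ℝ) (σ : J → X → ℝ) (s η : ℝ) (j : J) (p : ℝ × X) :
    SA S0 σ s η (Sum.inr j) p = al η p.1 * s * σ j p.2 := rfl

end muA

end Vale.Agent.P146.H475
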