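import Vale.Agent.P146.H196.Gibm
import Vale.Agent.P146.H475.AmpDef

/-!
# The thermal amplitude: the exact vector Ghirlanda–Guerra identity

`gg_exact`: in the law with density proportional to `Z^x`, for every function `φ` of the plain
coordinates and every function `T` of the spins,
`E_x φ ( (s² |J| - c) ⟨T ins al⟩ - (1 - x) s² ∑_j ⟨T ins σ_j⟩⟨al σ_j⟩ ) = lam E_x φ ⟨T sg⟩`.
-/

open MeasureTheory ProbabilityTheory Filter Topology Set

namespace Vale.Agent.P146.H475

open Vale.Agent.P157.Lv Vale.Agent.P146.H425 Vale.Agent.P146.H325 Vale.Agent.P146.H196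

set_option linter.unusedSectionVars false

variable {κ J X : Type} [Fintype κ] [DecidableEq κ] [Fintype J] [DecidableEq J]
  [Fintype X] [Nonempty X] [MeasurableSpace X] [MeasurableSingletonClass X]

/-- the compensator weight -/
noncomputable def cw (η c t : ℝ) : ℝ := Real.exp (-(c / 2 * (al η t ^ 2 - 1)))

lemma cw_pos (η c t : ℝ) : 0 < cw η c t := Real.exp_pos _

lemma measurable_cw (η c : ℝ) : Measurable (cw η c) := by
  unfold cw
  have := measurable_al η
  fun_prop

lemma cw_le {η : ℝ} (hη : 0 ≤ η) (c t : ℝ) :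
    cw η c t ≤ Real.exp (|c| / 2 * ((1 + η) ^ 2 + 1)) := by
  unfold cw
  refine Real.exp_le_exp.2 ((le_abs_self _).trans ?_)
  rw [abs_neg, abs_mul, abs_div, abs_two]
  refine mul_le_mul_of_nonneg_left ?_ (by positivity)
  have h1 := al_mem hη t
  have h2 : |al η t| ≤ 1 + η := by rw [abs_le]; constructor <;> linarith [h1.1, h1.2]
  have h3 : al η t ^ 2 ≤ (1 + η) ^ 2 := by
    rw [← sq_abs]; exact pow_le_pow_left₀ (abs_nonneg _) h2 2
  rw [abs_le]
  constructor <;> nlinarith [sq_nonneg (al η t), sq_nonneg (1 + η)]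

lemma muA_eq (lam η c : ℝ) : muA X lam η c = ((lap lam).prod Measure.count).withDensity
    fun p => ENNReal.ofReal (cw η c p.1) := rfl

theorem finite_muA {lam η : ℝ} (h : 0 < lam) (hη : 0 ≤ η) (c : ℝ) :
    IsFiniteMeasure (muA X lam η c) := by
  have := isProb_lap h
  rw [muA_eq]
  refine isFiniteMeasure_withDensity ?_
  refine ne_of_lt ?_
  calc ∫⁻ p : ℝ × X, ENNReal.ofReal (cw η c p.1) ∂((lap lam).prod Measure.count)
      ≤ ∫⁻ _p : ℝ × X, ENNReal.ofReal (Real.exp (|c| / 2 * ((1 + η) ^ 2 + 1)))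
          ∂((lap lam).prod Measure.count) :=
        lintegral_mono fun p => ENNReal.ofReal_le_ofReal (cw_le hη c p.1)
    _ < ⊤ := by
        rw [lintegral_const]
        exact ENNReal.mul_lt_top ENNReal.ofReal_lt_top (measure_lt_top _ _)

/-- integrals against `muA` -/
theorem integral_muA {lam η : ℝ} (h : 0 < lam) (hη : 0 ≤ η) (c : ℝ) {f : ℝ × X → ℝ} (hf : Bm f) :
    ∫ p, f p ∂(muA X lam η c) = ∑ x, ∫ t, cw η c t * f (t, x) ∂(lap lam) := by
  have hp := isProb_lap h
  have hcm : Measurable fun p : ℝ × X => cw η c p.1 := (measurable_cw η c).comp measurable_fst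
  rw [muA_eq, integral_withDensity_eq_integral_toReal_smul hcm.ennreal_ofReal
    (Eventually.of_forall fun p => ENNReal.ofReal_lt_top)]
  obtain ⟨C, hC, hb⟩ := hf.2
  have hB : Bm fun p : ℝ × X => cw η c p.1 * f p := by
    refine Bm.of (hcm.mul hf.1) (C := Real.exp (|c| / 2 * ((1 + η) ^ 2 + 1)) * C) fun p => ?_
    rw [abs_mul, abs_of_pos (cw_pos η c p.1)]
    exact mul_le_mul (cw_le hη c p.1) (hb p) (abs_nonneg _) (Real.exp_pos _).le
  have e1 : ∫ p : ℝ × X, (ENNReal.ofReal (cw η c p.1)).toReal • f p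
        ∂((lap lam).prod Measure.count) =
      ∫ p : ℝ × X, cw η c p.1 * f p ∂((lap lam).prod Measure.count) := by
    refine integral_congr_ae (Eventually.of_forall fun p => ?_)
    simp only [smul_eq_mul]
    rw [ENNReal.toReal_ofReal (cw_pos η c p.1).le]
  rw [e1, integral_prod_symm _ hB.integrable, integral_count]

lemma muA_ne {lam η : ℝ} (h : 0 < lam) (hη : 0 ≤ η) (c : ℝ) : muA X lam η c ≠ 0 := by
  intro h0
  have hp := isProb_lap h
  have h1 := integral_muA (X := X) h hη c (Bm.const 1)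
  rw [h0, integral_zero_measure] at h1
  have h2 : 0 < ∑ _x : X, ∫ t, cw η c t * 1 ∂(lap lam) := by
    refine Finset.sum_pos (fun x _ => ?_) Finset.univ_nonempty
    simp only [mul_one]
    have hi : Integrable (cw η c) (lap lam) :=
      Integrable.of_bound (measurable_cw η c).aestronglyMeasurable
        (Real.exp (|c| / 2 * ((1 + η) ^ 2 + 1)))
        (Eventually.of_forall fun t => by
          rw [Real.norm_eq_abs, abs_of_pos (cw_pos η c t)]; exact cw_le hη c t)
    exact integral_exp_pos hi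
  exact h2.ne h1

/-- the standing bounds of the model -/
structure AB (S0 : κ → X → ℝ) (σ : J → X → ℝ) (s η M0 : ℝ) : Prop where
  pos : 0 ≤ M0
  b0 : ∀ e x, |S0 e x| ≤ M0
  b1 : ∀ j x, (1 + η) * |s| * |σ j x| ≤ M0

variable {S0 : κ → X → ℝ} {σ : J → X → ℝ} {lam s η c M0 x : ℝ}

/-- **the regularity classes of Gibm for the amplitude ensemble** -/
theorem gm (h : 0 < lam) (hη : 0 ≤ η) (hB : AB S0 σ s η M0) :
    GM (muA X lam η c) (SA S0 σ s η) M0 where
  fin := finite_muA h hη c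
  ne := muA_ne h hη c
  pos := hB.pos
  meas := by
    intro e
    cases e with
    | inl e => exact (measurable_of_finite (S0 e)).comp measurable_snd
    | inr j =>
      exact (((measurable_al η).comp measurable_fst).mul_const s).mul
        ((measurable_of_finite (σ j)).comp measurable_snd)
  bd := by
    intro e p
    cases e with
    | inl e => exact hB.b0 e p.2
    | inr j =>
      refine le_trans ?_ (hB.b1 j p.2)
      rw [SA_inr, abs_mul, abs_mul]
      have h1 := al_mem hη p.1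
      have h2 : |al η p.1| ≤ 1 + η := by rw [abs_le]; constructor <;> linarith [h1.1, h1.2]
      gcongr

/-- bounded functions of the spins -/
lemma bm_snd (T : X → ℝ) : Bm fun p : ℝ × X => T p.2 := by
  refine Bm.of ((measurable_of_finite T).comp measurable_snd) (C := ∑ x, |T x|) fun p => ?_
  exact Finset.single_le_sum (f := fun x => |T x|) (fun _ _ => abs_nonneg _) (Finset.mem_univ p.2)

lemma bm_al (hη : 0 ≤ η) : Bm fun p : ℝ × X => al η p.1 := by
  refine Bm.of ((measurable_al η).comp measurable_fst) (C := 1 + η) fun p => ?_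
  have h1 := al_mem hη p.1
  rw [abs_le]; constructor <;> linarith [h1.1, h1.2]

lemma bm_ins (η : ℝ) : Bm fun p : ℝ × X => ins η p.1 := by
  refine Bm.of ((measurable_ins η).comp measurable_fst) (C := 1) fun p => ?_
  rw [abs_of_nonneg (ins_nonneg _ _)]; exact ins_le _ _

lemma bm_sg : Bm fun p : ℝ × X => sg p.1 :=
  Bm.of (measurable_sg.comp measurable_fst) (C := 1) fun p => (abs_sg p.1).le

/-- the total field acting on the modulated part -/
noncomputable def Gf (σ : J → X → ℝ) (s : ℝ) (u : κ ⊕ J → ℝ) (x : X) : ℝ :=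
  ∑ j, s * σ j x * u (Sum.inr j)

/-- the plain energy -/
noncomputable def Ef (S0 : κ → X → ℝ) (u : κ ⊕ J → ℝ) (x : X) : ℝ := ∑ e, S0 e x * u (Sum.inl e)

lemma ezm_SA (u : κ ⊕ J → ℝ) (t : ℝ) (x : X) :
    ezm 1 (SA S0 σ s η) u (t, x) = Real.exp (Ef S0 u x + al η t * Gf σ s u x) := by
  unfold ezm Ef Gf
  rw [one_mul, Fintype.sum_sum_type, Finset.mul_sum]
  congr 2
  refine Finset.sum_congr rfl fun j _ => ?_
  simp only [SA_inr]
  ring

/-- **Integration by parts in the amplitude, for every value of the Gaussian coordinates.** -/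
theorem av_ibp (h : 0 < lam) (hη : 0 ≤ η) (hB : AB S0 σ s η M0) (T : X → ℝ) (u : κ ⊕ J → ℝ) :
    (∑ j, u (Sum.inr j) * avm (muA X lam η c) 1 (SA S0 σ s η)
        (fun p => T p.2 * ins η p.1 * (s * σ j p.2)) u) -
      c * avm (muA X lam η c) 1 (SA S0 σ s η) (fun p => T p.2 * ins η p.1 * al η p.1) u =
    lam * avm (muA X lam η c) 1 (SA S0 σ s η) (fun p => T p.2 * sg p.1) u := by
  have hG := gm (c := c) h hη hB
  set μ := muA X lam η c with hμ
  set SS := SA S0 σ s η with hSS
  have bTi : Bm fun p : ℝ × X => T p.2 * ins η p.1 := (bm_snd T).mul (bm_ins η)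
  have bG : Bm fun p : ℝ × X => Gf σ s u p.2 := bm_snd _
  -- everything as one Gibbs average
  have e1 : (∑ j, u (Sum.inr j) * avm μ 1 SS (fun p => T p.2 * ins η p.1 * (s * σ j p.2)) u) -
      c * avm μ 1 SS (fun p => T p.2 * ins η p.1 * al η p.1) u =
      avm μ 1 SS (fun p => T p.2 * ins η p.1 * (Gf σ s u p.2 - c * al η p.1)) u := by
    have a1 : (∑ j, u (Sum.inr j) * avm μ 1 SS (fun p => T p.2 * ins η p.1 * (s * σ j p.2)) u) =
        avm μ 1 SS (fun p => T p.2 * ins η p.1 * Gf σ s u p.2) u := by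
      rw [← Finset.sum_congr rfl fun j _ => av_mul μ 1 SS (u (Sum.inr j))
        (fun p => T p.2 * ins η p.1 * (s * σ j p.2)) u]
      rw [← hG.av_sum 1 Finset.univ fun j _ => ((bTi.mul (bm_snd fun x => s * σ j x)).const_mul
        (u (Sum.inr j)))]
      congr 1
      funext p
      unfold Gf
      rw [Finset.mul_sum]
      refine Finset.sum_congr rfl fun j _ => ?_
      ring
    rw [a1, ← av_mul μ 1 SS c, ← hG.av_sub 1 (bTi.mul bG) ((bTi.mul (bm_al hη)).const_mul c)]
    congr 1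
    funext p
    ring
  rw [e1, ← av_mul μ 1 SS lam]
  unfold avm
  congr 1
  have b1 : Bm fun p : ℝ × X => ezm 1 SS u p * (T p.2 * ins η p.1 * (Gf σ s u p.2 - c * al η p.1)) :=
    (hG.bez 1 u).mul (bTi.mul (bG.sub ((bm_al hη).const_mul c)))
  have b2 : Bm fun p : ℝ × X => ezm 1 SS u p * (lam * (T p.2 * sg p.1)) :=
    (hG.bez 1 u).mul (((bm_snd T).mul bm_sg).const_mul lam)
  rw [hμ, integral_muA h hη c b1, integral_muA h hη c b2]
  refine Finset.sum_congr rfl fun x _ => ?_
  -- one-dimensional identity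
  set E := Ef S0 u x with hE
  set G := Gf σ s u x with hGf
  have hW : ∀ a, HasDerivAt (fun a => Real.exp (E + a * G - c / 2 * (a ^ 2 - 1)))
      ((G - c * a) * Real.exp (E + a * G - c / 2 * (a ^ 2 - 1))) a := by
    intro a
    have h1 : HasDerivAt (fun a : ℝ => E + a * G - c / 2 * (a ^ 2 - 1)) (G - c * a) a := by
      have h2 := (((hasDerivAt_id a).mul_const G).const_add E).sub
        ((((hasDerivAt_pow 2 a).sub_const 1).const_mul (c / 2)))
      refine h2.congr_deriv ?_
      simp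
      ring
    refine h1.exp.congr_deriv ?_
    ring
  have key := ibp_amp h hη hW (by fun_prop)
  have f1 : ∀ t, cw η c t * (ezm 1 SS u (t, x) * (T x * ins η t * (G - c * al η t))) =
      T x * (ins η t * ((G - c * al η t) *
        Real.exp (E + al η t * G - c / 2 * (al η t ^ 2 - 1)))) := by
    intro t
    rw [hSS, ezm_SA, ← hE, ← hGf]
    unfold cw
    rw [sub_eq_add_neg (E + al η t * G), Real.exp_add (E + al η t * G)]
    ring
  have f2 : ∀ t, cw η c t * (ezm 1 SS u (t, x) * (lam * (T x * sg t))) =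
      T x * lam * (sg t * Real.exp (E + al η t * G - c / 2 * (al η t ^ 2 - 1))) := by
    intro t
    rw [hSS, ezm_SA, ← hE, ← hGf]
    unfold cw
    rw [sub_eq_add_neg (E + al η t * G), Real.exp_add (E + al η t * G)]
    ring
  simp only [← hGf, f1, f2]
  rw [integral_const_mul, integral_const_mul, key]
  ring

/-- Gaussian integration by parts in one coordinate of the modulated field. -/
theorem stein_j (h : 0 < lam) (hη : 0 ≤ η) (hB : AB S0 σ s η M0) (x : ℝ) {φ : (κ ⊕ J → ℝ) → ℝ}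
    (hφ : EG φ) (j : J) (hi : ∀ u r, φ (Function.update u (Sum.inr j) r) = φ u)
    {f : ℝ × X → ℝ} (hf : Bm f) :
    ∫ u, u (Sum.inr j) * (φ u * (Zxm (muA X lam η c) 1 (SA S0 σ s η) x u *
        avm (muA X lam η c) 1 (SA S0 σ s η) f u)) ∂(gI (κ ⊕ J)) =
      ∫ u, φ u * (Zxm (muA X lam η c) 1 (SA S0 σ s η) x u *
        (avm (muA X lam η c) 1 (SA S0 σ s η) (fun p => f p * (al η p.1 * s * σ j p.2)) u -
          (1 - x) * (avm (muA X lam η c) 1 (SA S0 σ s η) f u *
            avm (muA X lam η c) 1 (SA S0 σ s η) (fun p => al η p.1 * s * σ j p.2) u)))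
        ∂(gI (κ ⊕ J)) := by
  have hG := gm (c := c) h hη hB
  obtain ⟨F2, hC⟩ := hG.c2_Zav 1 x hf
  have h1 := hC.pd0 (Sum.inr j)
  have h2 : PD (Sum.inr j) φ (fun _ => 0) := PD.of_indep hi
  have h3 := h2.mul h1
  have e1 : EG fun u : κ ⊕ J → ℝ => φ u * (Zxm (muA X lam η c) 1 (SA S0 σ s η) x u *
      avm (muA X lam η c) 1 (SA S0 σ s η) f u) := hφ.mul hC.eg
  have e2 := (EG.const (ι := κ ⊕ J) 0).mul hC.eg |>.add (hφ.mul (hC.eg1 (Sum.inr j)))
  have h4 := h3.stein e1 e2
  rw [h4]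
  refine integral_congr_ae (Eventually.of_forall fun u => ?_)
  simp only [zero_mul, zero_add, one_mul]
  rfl

/-- **The exact Ghirlanda–Guerra identity of the thermal amplitude.** `φ` depends on the plain
coordinates only, `T` is any function of the spins. -/
theorem gg_exact (h : 0 < lam) (hη : 0 ≤ η) (hB : AB S0 σ s η M0) (hσ : ∀ j x, σ j x ^ 2 = 1)
    (x : ℝ) {φ : (κ ⊕ J → ℝ) → ℝ} (hφ : EG φ)
    (hi : ∀ j u r, φ (Function.update u (Sum.inr j) r) = φ u) (T : X → ℝ) :
    ∫ u, φ u * (Zxm (muA X lam η c) 1 (SA S0 σ s η) x u *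
        ((s ^ 2 * Fintype.card J - c) *
            avm (muA X lam η c) 1 (SA S0 σ s η) (fun p => T p.2 * ins η p.1 * al η p.1) u -
          (1 - x) * s ^ 2 * ∑ j,
            avm (muA X lam η c) 1 (SA S0 σ s η) (fun p => T p.2 * ins η p.1 * σ j p.2) u *
              avm (muA X lam η c) 1 (SA S0 σ s η) (fun p => al η p.1 * σ j p.2) u))
        ∂(gI (κ ⊕ J)) =
      lam * ∫ u, φ u * (Zxm (muA X lam η c) 1 (SA S0 σ s η) x u *
        avm (muA X lam η c) 1 (SA S0 σ s η) (fun p => T p.2 * sg p.1) u) ∂(gI (κ ⊕ J)) := by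
  have hG := gm (c := c) h hη hB
  set μ := muA X lam η c with hμ
  set SS := SA S0 σ s η with hSS
  have bTi : Bm fun p : ℝ × X => T p.2 * ins η p.1 := (bm_snd T).mul (bm_ins η)
  have bf : ∀ j, Bm fun p : ℝ × X => T p.2 * ins η p.1 * (s * σ j p.2) := fun j =>
    bTi.mul (bm_snd fun x => s * σ j x)
  have bal : Bm fun p : ℝ × X => T p.2 * ins η p.1 * al η p.1 := bTi.mul (bm_al hη)
  have bas : ∀ j, Bm fun p : ℝ × X => al η p.1 * s * σ j p.2 := fun j =>
    ((bm_al hη).mul (Bm.const s)).mul (bm_snd (σ j))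
  have eZ := hG.eg_Zx 1 x
  rw [← integral_const_mul]
  have e1 : ∫ u, lam * (φ u * (Zxm μ 1 SS x u * avm μ 1 SS (fun p => T p.2 * sg p.1) u))
        ∂(gI (κ ⊕ J)) =
      ∫ u, ((∑ j, u (Sum.inr j) * (φ u * (Zxm μ 1 SS x u *
          avm μ 1 SS (fun p => T p.2 * ins η p.1 * (s * σ j p.2)) u))) -
        c * (φ u * (Zxm μ 1 SS x u *
          avm μ 1 SS (fun p => T p.2 * ins η p.1 * al η p.1) u))) ∂(gI (κ ⊕ J)) := by
    refine integral_congr_ae (Eventually.of_forall fun u => ?_)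
    simp only
    have h1 := av_ibp (c := c) h hη hB T u
    rw [← hμ, ← hSS] at h1
    have h2 : lam * (φ u * (Zxm μ 1 SS x u * avm μ 1 SS (fun p => T p.2 * sg p.1) u)) =
        φ u * (Zxm μ 1 SS x u * (lam * avm μ 1 SS (fun p => T p.2 * sg p.1) u)) := by ring
    rw [h2, ← h1, mul_sub, mul_sub, Finset.mul_sum, Finset.mul_sum]
    congr 1
    · exact Finset.sum_congr rfl fun j _ => by ring
    · ring
  have i1 : ∀ j, Integrable (fun u : κ ⊕ J → ℝ => u (Sum.inr j) * (φ u * (Zxm μ 1 SS x u *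
      avm μ 1 SS (fun p => T p.2 * ins η p.1 * (s * σ j p.2)) u))) (gI (κ ⊕ J)) := fun j =>
    ((EG.coord (Sum.inr j)).mul (hφ.mul (eZ.mul (hG.eg_av 1 (bf j))))).integrable
  have i2 : Integrable (fun u : κ ⊕ J → ℝ => c * (φ u * (Zxm μ 1 SS x u *
      avm μ 1 SS (fun p => T p.2 * ins η p.1 * al η p.1) u))) (gI (κ ⊕ J)) :=
    ((hφ.mul (eZ.mul (hG.eg_av 1 bal))).const_mul c).integrable
  have i3 : ∀ j, Integrable (fun u : κ ⊕ J → ℝ => φ u * (Zxm μ 1 SS x u *
      (avm μ 1 SS (fun p => T p.2 * ins η p.1 * (s * σ j p.2) * (al η p.1 * s * σ j p.2)) u -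
        (1 - x) * (avm μ 1 SS (fun p => T p.2 * ins η p.1 * (s * σ j p.2)) u *
          avm μ 1 SS (fun p => al η p.1 * s * σ j p.2) u)))) (gI (κ ⊕ J)) := fun j =>
    (hφ.mul (eZ.mul ((hG.eg_av 1 ((bf j).mul (bas j))).sub
      (((hG.eg_av 1 (bf j)).mul (hG.eg_av 1 (bas j))).const_mul (1 - x))))).integrable
  rw [e1, integral_sub (integrable_finsetSum _ fun j _ => i1 j) i2,
    integral_finsetSum _ fun j _ => i1 j]
  have e2 : ∀ j, ∫ u, u (Sum.inr j) * (φ u * (Zxm μ 1 SS x u *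
      avm μ 1 SS (fun p => T p.2 * ins η p.1 * (s * σ j p.2)) u)) ∂(gI (κ ⊕ J)) =
      ∫ u, φ u * (Zxm μ 1 SS x u *
      (avm μ 1 SS (fun p => T p.2 * ins η p.1 * (s * σ j p.2) * (al η p.1 * s * σ j p.2)) u -
        (1 - x) * (avm μ 1 SS (fun p => T p.2 * ins η p.1 * (s * σ j p.2)) u *
          avm μ 1 SS (fun p => al η p.1 * s * σ j p.2) u))) ∂(gI (κ ⊕ J)) := fun j =>
    stein_j h hη hB x hφ j (hi j) (bf j)
  rw [Finset.sum_congr rfl fun j _ => e2 j, ← integral_finsetSum _ fun j _ => i3 j,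
    ← integral_sub (integrable_finsetSum _ fun j _ => i3 j) i2]
  refine integral_congr_ae (Eventually.of_forall fun u => ?_)
  simp only
  have a1 : ∀ j, avm μ 1 SS (fun p => T p.2 * ins η p.1 * (s * σ j p.2) *
      (al η p.1 * s * σ j p.2)) u =
      s ^ 2 * avm μ 1 SS (fun p => T p.2 * ins η p.1 * al η p.1) u := by
    intro j
    rw [← H196.av_mul]
    congr 1
    funext p
    have := hσ j p.2
    linear_combination (T p.2 * ins η p.1 * al η p.1 * s ^ 2) * this
  have a2 : ∀ j, avm μ 1 SS (fun p => T p.2 * ins η p.1 * (s * σ j p.2)) u =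
      s * avm μ 1 SS (fun p => T p.2 * ins η p.1 * σ j p.2) u := by
    intro j
    rw [← H196.av_mul]
    congr 1
    funext p
    ring
  have a3 : ∀ j, avm μ 1 SS (fun p => al η p.1 * s * σ j p.2) u =
      s * avm μ 1 SS (fun p => al η p.1 * σ j p.2) u := by
    intro j
    rw [← H196.av_mul]
    congr 1
    funext p
    ring
  simp only [a1, a2, a3]
  rw [← Finset.mul_sum, ← Finset.mul_sum, Finset.sum_sub_distrib, Finset.sum_const,
    Finset.card_univ, nsmul_eq_mul]
  have a4 : ∑ j, (1 - x) * (s * avm μ 1 SS (fun p => T p.2 * ins η p.1 * σ j p.2) u *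
      (s * avm μ 1 SS (fun p => al η p.1 * σ j p.2) u)) =
      (1 - x) * s ^ 2 * ∑ j, avm μ 1 SS (fun p => T p.2 * ins η p.1 * σ j p.2) u *
        avm μ 1 SS (fun p => al η p.1 * σ j p.2) u := by
    rw [Finset.mul_sum]
    exact Finset.sum_congr rfl fun j _ => by ring
  rw [a4]
  ring

end Vale.Agent.P146.H475
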