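import Vale.Agent.P146.H475.Amp2
import Vale.Agent.P146.H646.Blk

/-!
# The thermal amplitude: the norm bound of the Ghirlanda–Guerra error, in dual form

`gg_dual`: for `U k` functions of the plain coordinates and `T k` functions of the spins,
`|E_x ∑ U_k VV(T_k)| ≤ (lam/((1-x) s² n) + (|r0|+1)(1+η) √(E_x⟨1-ins⟩)) √(E_x⟨(∑ U_k T_k)²⟩)`,
where `VV r0 T = r0 ⟨T al⟩ - (1/n) ∑_j ⟨T σ_j⟩⟨al σ_j⟩` and `c = s² n (1 - (1-x) r0)`.
-/

open MeasureTheory ProbabilityTheory Filter Topology Set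

namespace Vale.Agent.P146.H475

open Vale.Agent.P157.Lv Vale.Agent.P146.H425 Vale.Agent.P146.H325 Vale.Agent.P146.H196

set_option linter.unusedSectionVars false

variable {κ J X : Type} [Fintype κ] [DecidableEq κ] [Fintype J] [DecidableEq J]
  [Fintype X] [Nonempty X] [MeasurableSpace X] [MeasurableSingletonClass X]
  {S0 : κ → X → ℝ} {σ : J → X → ℝ} {lam s η c M0 x : ℝ}

/-- Cauchy–Schwarz for integrals against a nonnegative weight -/
lemma cs_w {ι : Type} [Fintype ι] {P f g : (ι → ℝ) → ℝ} (hP : EG P) (h0 : ∀ u, 0 ≤ P u)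
    (hf : EG f) (hg : EG g) :
    (∫ u, P u * (f u * g u) ∂(gI ι)) ^ 2 ≤
      (∫ u, P u * f u ^ 2 ∂(gI ι)) * ∫ u, P u * g u ^ 2 ∂(gI ι) := by
  have i1 := (hP.mul (hf.pow 2)).integrable
  have i2 := (hP.mul (hg.pow 2)).integrable
  have i3 := (hP.mul (hf.mul hg)).integrable
  have key : ∀ t : ℝ, 0 ≤ (∫ u, P u * f u ^ 2 ∂(gI ι)) * (t * t) +
      (2 * ∫ u, P u * (f u * g u) ∂(gI ι)) * t + ∫ u, P u * g u ^ 2 ∂(gI ι) := by
    intro t
    have h1 : 0 ≤ ∫ u, P u * (f u * t + g u) ^ 2 ∂(gI ι) :=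
      integral_nonneg fun u => mul_nonneg (h0 u) (sq_nonneg _)
    have h2 : ∫ u, P u * (f u * t + g u) ^ 2 ∂(gI ι) =
        ∫ u, ((t * t) * (P u * f u ^ 2) + (2 * t) * (P u * (f u * g u))) + P u * g u ^ 2
          ∂(gI ι) := integral_congr_ae (Eventually.of_forall fun u => by simp only; ring)
    have i4 : Integrable (fun u => (t * t) * (P u * f u ^ 2) + (2 * t) * (P u * (f u * g u)))
        (gI ι) := (i1.const_mul _).add (i3.const_mul _)
    rw [h2, integral_add i4 i2, integral_add (i1.const_mul _) (i3.const_mul _),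
      integral_const_mul, integral_const_mul] at h1
    linarith
  have := discrim_le_zero key
  unfold discrim at this
  nlinarith

/-- the vector of the linear Ghirlanda–Guerra identity -/
noncomputable def VV (μ : Measure (ℝ × X)) (SS : κ ⊕ J → ℝ × X → ℝ) (σ : J → X → ℝ) (η r0 : ℝ)
    (T : X → ℝ) (u : κ ⊕ J → ℝ) : ℝ :=
  r0 * avm μ 1 SS (fun p => T p.2 * al η p.1) u -
    1 / Fintype.card J * ∑ j, avm μ 1 SS (fun p => T p.2 * σ j p.2) u *
      avm μ 1 SS (fun p => al η p.1 * σ j p.2) u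

/-- the same with the indicator of the region where the amplitude moves -/
noncomputable def VI (μ : Measure (ℝ × X)) (SS : κ ⊕ J → ℝ × X → ℝ) (σ : J → X → ℝ) (η r0 : ℝ)
    (T : X → ℝ) (u : κ ⊕ J → ℝ) : ℝ :=
  r0 * avm μ 1 SS (fun p => T p.2 * ins η p.1 * al η p.1) u -
    1 / Fintype.card J * ∑ j, avm μ 1 SS (fun p => T p.2 * ins η p.1 * σ j p.2) u *
      avm μ 1 SS (fun p => al η p.1 * σ j p.2) u

/-- `gg_exact` for `VI` -/
theorem gg_VI [Nonempty J] (h : 0 < lam) (hη : 0 ≤ η) (hB : AB S0 σ s η M0)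
    (hσ : ∀ j x, σ j x ^ 2 = 1) {r0 : ℝ}
    (hc : c = s ^ 2 * Fintype.card J * (1 - (1 - x) * r0)) {φ : (κ ⊕ J → ℝ) → ℝ} (hφ : EG φ)
    (hi : ∀ j u r, φ (Function.update u (Sum.inr j) r) = φ u) (T : X → ℝ) :
    (1 - x) * s ^ 2 * Fintype.card J * ∫ u, Zxm (muA X lam η c) 1 (SA S0 σ s η) x u *
        (φ u * VI (muA X lam η c) (SA S0 σ s η) σ η r0 T u) ∂(gI (κ ⊕ J)) =
      lam * ∫ u, Zxm (muA X lam η c) 1 (SA S0 σ s η) x u *
        (φ u * avm (muA X lam η c) 1 (SA S0 σ s η) (fun p => T p.2 * sg p.1) u)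
          ∂(gI (κ ⊕ J)) := by
  have h1 := gg_exact h hη hB hσ x hφ hi T (c := c)
  have hn : (Fintype.card J : ℝ) ≠ 0 := by
    have : 0 < Fintype.card J := Fintype.card_pos
    positivity
  rw [← integral_const_mul]
  have e1 : ∫ u, Zxm (muA X lam η c) 1 (SA S0 σ s η) x u *
        (φ u * avm (muA X lam η c) 1 (SA S0 σ s η) (fun p => T p.2 * sg p.1) u)
          ∂(gI (κ ⊕ J)) = ∫ u, φ u * (Zxm (muA X lam η c) 1 (SA S0 σ s η) x u *
        avm (muA X lam η c) 1 (SA S0 σ s η) (fun p => T p.2 * sg p.1) u) ∂(gI (κ ⊕ J)) :=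
    integral_congr_ae (Eventually.of_forall fun u => by simp only; ring)
  rw [e1, ← h1]
  refine integral_congr_ae (Eventually.of_forall fun u => ?_)
  simp only
  unfold VI
  rw [hc]
  field_simp
  ring

/-- pointwise bound of the part where the amplitude does not move -/
lemma VV_sub_VI [Nonempty J] (h : 0 < lam) (hη : 0 ≤ η) (hB : AB S0 σ s η M0)
    (hσ : ∀ j x, σ j x ^ 2 = 1) (r0 : ℝ) (u : κ ⊕ J → ℝ) (T : X → ℝ) :
    |VV (muA X lam η c) (SA S0 σ s η) σ η r0 T u - VI (muA X lam η c) (SA S0 σ s η) σ η r0 T u| ≤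
      (|r0| + 1) * (1 + η) * avm (muA X lam η c) 1 (SA S0 σ s η)
        (fun p => (1 - ins η p.1) * |T p.2|) u := by
  have hG := gm (c := c) h hη hB
  set μ := muA X lam η c with hμ
  set SS := SA S0 σ s η with hSS
  have hn : (0 : ℝ) < Fintype.card J := by
    have : 0 < Fintype.card J := Fintype.card_pos
    positivity
  have bT := bm_snd T
  have bTa := (bm_snd T).mul (bm_al (X := X) hη)
  have bi := bm_ins (X := X) η
  have bi1 : Bm fun p : ℝ × X => 1 - ins η p.1 := (Bm.const 1).sub bi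
  have bR : Bm fun p : ℝ × X => (1 - ins η p.1) * |T p.2| := bi1.mul (bm_snd fun x => |T x|)
  set R := avm μ 1 SS (fun p => (1 - ins η p.1) * |T p.2|) u with hR
  have hσ1 : ∀ j x, |σ j x| = 1 := fun j x =>
    (pow_eq_one_iff_of_nonneg (abs_nonneg _) two_ne_zero).1 (by rw [sq_abs]; exact hσ j x)
  have hal : ∀ p : ℝ × X, |al η p.1| ≤ 1 + η := fun p => by
    have h1 := al_mem hη p.1
    rw [abs_le]; constructor <;> linarith [h1.1, h1.2]
  have hi0 : ∀ p : ℝ × X, 0 ≤ 1 - ins η p.1 := fun p => by linarith [ins_le η p.1]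
  -- the two differences
  have d1 : avm μ 1 SS (fun p => T p.2 * al η p.1) u -
      avm μ 1 SS (fun p => T p.2 * ins η p.1 * al η p.1) u =
      avm μ 1 SS (fun p => (1 - ins η p.1) * (T p.2 * al η p.1)) u := by
    rw [← hG.av_sub 1 bTa ((bT.mul bi).mul (bm_al hη))]
    congr 1
    funext p
    ring
  have d2 : ∀ j, avm μ 1 SS (fun p => T p.2 * σ j p.2) u -
      avm μ 1 SS (fun p => T p.2 * ins η p.1 * σ j p.2) u =
      avm μ 1 SS (fun p => (1 - ins η p.1) * (T p.2 * σ j p.2)) u := by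
    intro j
    rw [← hG.av_sub 1 (bT.mul (bm_snd (σ j))) ((bT.mul bi).mul (bm_snd (σ j)))]
    congr 1
    funext p
    ring
  have ab : ∀ {f : ℝ × X → ℝ} (_ : Bm f) {C : ℝ} (_ : ∀ p, |f p| ≤ C * ((1 - ins η p.1) * |T p.2|)),
      |avm μ 1 SS f u| ≤ C * R := by
    intro f hf C hC
    rw [abs_le]
    constructor
    · have h1 := hG.av_mono 1 (h := fun p => -C * ((1 - ins η p.1) * |T p.2|)) (bR.const_mul _) hf
        (fun p => by linarith [(abs_le.1 (hC p)).1]) u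
      rw [H196.av_mul] at h1
      linarith
    · have h1 := hG.av_mono 1 (g := fun p => C * ((1 - ins η p.1) * |T p.2|)) hf (bR.const_mul _)
        (fun p => (abs_le.1 (hC p)).2) u
      rwa [H196.av_mul] at h1
  have a1 : |avm μ 1 SS (fun p => (1 - ins η p.1) * (T p.2 * al η p.1)) u| ≤ (1 + η) * R := by
    refine ab (bi1.mul bTa) fun p => ?_
    rw [abs_mul, abs_mul, abs_of_nonneg (hi0 p)]
    have := mul_le_mul_of_nonneg_left (hal p) (mul_nonneg (hi0 p) (abs_nonneg (T p.2)))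
    linarith
  have a2 : ∀ j, |avm μ 1 SS (fun p => (1 - ins η p.1) * (T p.2 * σ j p.2)) u| ≤ R := by
    intro j
    have := ab (C := 1) (bi1.mul (bT.mul (bm_snd (σ j)))) fun p => ?_
    · rwa [one_mul] at this
    · rw [abs_mul, abs_mul, abs_of_nonneg (hi0 p), hσ1 j p.2, mul_one, one_mul]
  have a3 : ∀ j, |avm μ 1 SS (fun p => al η p.1 * σ j p.2) u| ≤ 1 + η := by
    intro j
    refine hG.abs_av_le 1 ((bm_al hη).mul (bm_snd (σ j))).meas (fun p => ?_) u
    rw [abs_mul, hσ1 j p.2, mul_one]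
    exact hal p
  have hR0 : 0 ≤ R := hG.av_nonneg 1 (fun p => mul_nonneg (hi0 p) (abs_nonneg _)) u
  have e : VV μ SS σ η r0 T u - VI μ SS σ η r0 T u =
      r0 * avm μ 1 SS (fun p => (1 - ins η p.1) * (T p.2 * al η p.1)) u -
      1 / Fintype.card J * ∑ j, avm μ 1 SS (fun p => (1 - ins η p.1) * (T p.2 * σ j p.2)) u *
        avm μ 1 SS (fun p => al η p.1 * σ j p.2) u := by
    have d3 : ∑ j, avm μ 1 SS (fun p => (1 - ins η p.1) * (T p.2 * σ j p.2)) u *
        avm μ 1 SS (fun p => al η p.1 * σ j p.2) u =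
        (∑ j, avm μ 1 SS (fun p => T p.2 * σ j p.2) u *
          avm μ 1 SS (fun p => al η p.1 * σ j p.2) u) -
        ∑ j, avm μ 1 SS (fun p => T p.2 * ins η p.1 * σ j p.2) u *
          avm μ 1 SS (fun p => al η p.1 * σ j p.2) u := by
      rw [← Finset.sum_sub_distrib]
      refine Finset.sum_congr rfl fun j _ => ?_
      rw [← d2 j, sub_mul]
    unfold VV VI
    rw [← d1, d3]
    ring
  rw [e]
  have s1 : |∑ j, avm μ 1 SS (fun p => (1 - ins η p.1) * (T p.2 * σ j p.2)) u *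
      avm μ 1 SS (fun p => al η p.1 * σ j p.2) u| ≤ Fintype.card J * (R * (1 + η)) := by
    refine (Finset.abs_sum_le_sum_abs _ _).trans ?_
    calc ∑ j, |avm μ 1 SS (fun p => (1 - ins η p.1) * (T p.2 * σ j p.2)) u *
          avm μ 1 SS (fun p => al η p.1 * σ j p.2) u| ≤ ∑ _j : J, R * (1 + η) :=
          Finset.sum_le_sum fun j _ => by
            rw [abs_mul]
            exact mul_le_mul (a2 j) (a3 j) (abs_nonneg _) hR0
      _ = _ := by rw [Finset.sum_const, Finset.card_univ, nsmul_eq_mul]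
  calc |r0 * avm μ 1 SS (fun p => (1 - ins η p.1) * (T p.2 * al η p.1)) u -
      1 / Fintype.card J * ∑ j, avm μ 1 SS (fun p => (1 - ins η p.1) * (T p.2 * σ j p.2)) u *
        avm μ 1 SS (fun p => al η p.1 * σ j p.2) u|
      ≤ |r0| * ((1 + η) * R) + 1 / Fintype.card J * (Fintype.card J * (R * (1 + η))) := by
        refine (abs_sub _ _).trans (add_le_add ?_ ?_)
        · rw [abs_mul]
          exact mul_le_mul_of_nonneg_left a1 (abs_nonneg _)
        · rw [abs_mul, abs_of_pos (by positivity)]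
          exact mul_le_mul_of_nonneg_left s1 (by positivity)
    _ = (|r0| + 1) * (1 + η) * R := by
        field_simp

/-- `VV` is linear in `T` -/
lemma VV_sum (h : 0 < lam) (hη : 0 ≤ η) (hB : AB S0 σ s η M0) (r0 : ℝ) {K : Type*} (A : Finset K)
    (a : K → ℝ) (T : K → X → ℝ) (u : κ ⊕ J → ℝ) :
    VV (muA X lam η c) (SA S0 σ s η) σ η r0 (fun x => ∑ k ∈ A, a k * T k x) u =
      ∑ k ∈ A, a k * VV (muA X lam η c) (SA S0 σ s η) σ η r0 (T k) u := by
  have hG := gm (c := c) h hη hB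
  set μ := muA X lam η c with hμ
  set SS := SA S0 σ s η with hSS
  unfold VV
  have e1 : avm μ 1 SS (fun p => (∑ k ∈ A, a k * T k p.2) * al η p.1) u =
      ∑ k ∈ A, a k * avm μ 1 SS (fun p => T k p.2 * al η p.1) u := by
    rw [Finset.sum_congr rfl fun k _ => (H196.av_mul μ 1 SS (a k) _ u).symm,
      ← hG.av_sum 1 A fun k _ => (((bm_snd (T k)).mul (bm_al hη)).const_mul (a k))]
    congr 1
    funext p
    rw [Finset.sum_mul]
    exact Finset.sum_congr rfl fun k _ => by ring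
  have e2 : ∀ j, avm μ 1 SS (fun p => (∑ k ∈ A, a k * T k p.2) * σ j p.2) u =
      ∑ k ∈ A, a k * avm μ 1 SS (fun p => T k p.2 * σ j p.2) u := by
    intro j
    rw [Finset.sum_congr rfl fun k _ => (H196.av_mul μ 1 SS (a k) _ u).symm,
      ← hG.av_sum 1 A fun k _ => (((bm_snd (T k)).mul (bm_snd (σ j))).const_mul (a k))]
    congr 1
    funext p
    rw [Finset.sum_mul]
    exact Finset.sum_congr rfl fun k _ => by ring
  rw [e1]
  simp only [e2]
  simp only [Finset.sum_mul]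
  rw [Finset.sum_comm]
  simp only [mul_sub, Finset.sum_sub_distrib, Finset.mul_sum]
  congr 1
  · exact Finset.sum_congr rfl fun k _ => by ring
  · exact Finset.sum_congr rfl fun k _ => Finset.sum_congr rfl fun j _ => by ring

lemma VI_sum (h : 0 < lam) (hη : 0 ≤ η) (hB : AB S0 σ s η M0) (r0 : ℝ) {K : Type*}
    (A : Finset K) (a : K → ℝ) (T : K → X → ℝ) (u : κ ⊕ J → ℝ) :
    VI (muA X lam η c) (SA S0 σ s η) σ η r0 (fun x => ∑ k ∈ A, a k * T k x) u =
      ∑ k ∈ A, a k * VI (muA X lam η c) (SA S0 σ s η) σ η r0 (T k) u := by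
  have hG := gm (c := c) h hη hB
  set μ := muA X lam η c with hμ
  set SS := SA S0 σ s η with hSS
  unfold VI
  have e1 : avm μ 1 SS (fun p => (∑ k ∈ A, a k * T k p.2) * ins η p.1 * al η p.1) u =
      ∑ k ∈ A, a k * avm μ 1 SS (fun p => T k p.2 * ins η p.1 * al η p.1) u := by
    rw [Finset.sum_congr rfl fun k _ => (H196.av_mul μ 1 SS (a k) _ u).symm,
      ← hG.av_sum 1 A fun k _ => ((((bm_snd (T k)).mul (bm_ins η)).mul (bm_al hη)).const_mul (a k))]
    congr 1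
    funext p
    rw [Finset.sum_mul, Finset.sum_mul]
    exact Finset.sum_congr rfl fun k _ => by ring
  have e2 : ∀ j, avm μ 1 SS (fun p => (∑ k ∈ A, a k * T k p.2) * ins η p.1 * σ j p.2) u =
      ∑ k ∈ A, a k * avm μ 1 SS (fun p => T k p.2 * ins η p.1 * σ j p.2) u := by
    intro j
    rw [Finset.sum_congr rfl fun k _ => (H196.av_mul μ 1 SS (a k) _ u).symm,
      ← hG.av_sum 1 A fun k _ =>
        ((((bm_snd (T k)).mul (bm_ins η)).mul (bm_snd (σ j))).const_mul (a k))]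
    congr 1
    funext p
    rw [Finset.sum_mul, Finset.sum_mul]
    exact Finset.sum_congr rfl fun k _ => by ring
  rw [e1]
  simp only [e2]
  simp only [Finset.sum_mul]
  rw [Finset.sum_comm]
  simp only [mul_sub, Finset.sum_sub_distrib, Finset.mul_sum]
  congr 1
  · exact Finset.sum_congr rfl fun k _ => by ring
  · exact Finset.sum_congr rfl fun k _ => Finset.sum_congr rfl fun j _ => by ring

/-- measurability and boundedness of `VV`, `VI` -/
lemma eg_VV (h : 0 < lam) (hη : 0 ≤ η) (hB : AB S0 σ s η M0) (r0 : ℝ) (T : X → ℝ) :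
    EG (VV (muA X lam η c) (SA S0 σ s η) σ η r0 T) := by
  have hG := gm (c := c) h hη hB
  unfold VV
  exact ((hG.eg_av 1 ((bm_snd T).mul (bm_al hη))).const_mul r0).sub
    ((EG.sum _ fun j _ => (hG.eg_av 1 ((bm_snd T).mul (bm_snd (σ j)))).mul
      (hG.eg_av 1 ((bm_al hη).mul (bm_snd (σ j))))).const_mul _)

lemma eg_VI (h : 0 < lam) (hη : 0 ≤ η) (hB : AB S0 σ s η M0) (r0 : ℝ) (T : X → ℝ) :
    EG (VI (muA X lam η c) (SA S0 σ s η) σ η r0 T) := by
  have hG := gm (c := c) h hη hB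
  unfold VI
  exact ((hG.eg_av 1 (((bm_snd T).mul (bm_ins η)).mul (bm_al hη))).const_mul r0).sub
    ((EG.sum _ fun j _ => (hG.eg_av 1 (((bm_snd T).mul (bm_ins η)).mul (bm_snd (σ j)))).mul
      (hG.eg_av 1 ((bm_al hη).mul (bm_snd (σ j))))).const_mul _)

/-- Cauchy–Schwarz for Gibbs averages -/
lemma av_cs {Ω ι : Type} [MeasurableSpace Ω] [Fintype ι] [DecidableEq ι] {μ : Measure Ω}
    {S : ι → Ω → ℝ} {M0 : ℝ} (hG : GM μ S M0) (k : ℝ) {f g : Ω → ℝ} (hf : Bm f) (hg : Bm g)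
    (u : ι → ℝ) : avm μ k S (fun w => f w * g w) u ^ 2 ≤
      avm μ k S (fun w => f w ^ 2) u * avm μ k S (fun w => g w ^ 2) u := by
  have key : ∀ t : ℝ, 0 ≤ avm μ k S (fun w => f w ^ 2) u * (t * t) +
      (2 * avm μ k S (fun w => f w * g w) u) * t + avm μ k S (fun w => g w ^ 2) u := by
    intro t
    have h1 := hG.av_nonneg k (h := fun w => (f w * t + g w) ^ 2) (fun w => sq_nonneg _) u
    have h2 : (fun w => (f w * t + g w) ^ 2) = fun w => ((t * t) * f w ^ 2 +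
        (2 * t) * (f w * g w)) + g w ^ 2 := by funext w; ring
    rw [h2, hG.av_add k (((hf.pow 2).const_mul _).add ((hf.mul hg).const_mul _)) (hg.pow 2),
      hG.av_add k ((hf.pow 2).const_mul _) ((hf.mul hg).const_mul _), H196.av_mul,
      H196.av_mul] at h1
    linarith
  have := discrim_le_zero key
  unfold discrim at this
  nlinarith

/-- **The dual norm bound, integrals.** -/
theorem gg_dual_int [Nonempty J] (h : 0 < lam) (hη : 0 ≤ η) (hB : AB S0 σ s η M0)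
    (hσ : ∀ j x, σ j x ^ 2 = 1) {r0 : ℝ} (hx : x < 1) (hs : s ≠ 0)
    (hc : c = s ^ 2 * Fintype.card J * (1 - (1 - x) * r0)) {K : Type*} (A : Finset K)
    {U : K → (κ ⊕ J → ℝ) → ℝ} (hU : ∀ k ∈ A, EG (U k))
    (hi : ∀ k ∈ A, ∀ j u r, U k (Function.update u (Sum.inr j) r) = U k u) (T : K → X → ℝ) :
    |∫ u, Zxm (muA X lam η c) 1 (SA S0 σ s η) x u *
        (∑ k ∈ A, U k u * VV (muA X lam η c) (SA S0 σ s η) σ η r0 (T k) u) ∂(gI (κ ⊕ J))| ≤
      (lam / ((1 - x) * s ^ 2 * Fintype.card J) *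
          √(∫ u, Zxm (muA X lam η c) 1 (SA S0 σ s η) x u ∂(gI (κ ⊕ J))) +
        (|r0| + 1) * (1 + η) * √(∫ u, Zxm (muA X lam η c) 1 (SA S0 σ s η) x u *
          avm (muA X lam η c) 1 (SA S0 σ s η) (fun p => 1 - ins η p.1) u ∂(gI (κ ⊕ J)))) *
      √(∫ u, Zxm (muA X lam η c) 1 (SA S0 σ s η) x u *
        avm (muA X lam η c) 1 (SA S0 σ s η) (fun p => (∑ k ∈ A, U k u * T k p.2) ^ 2) u
          ∂(gI (κ ⊕ J))) := by
  have hG := gm (c := c) h hη hB
  set μ := muA X lam η c with hμ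
  set SS := SA S0 σ s η with hSS
  set P := Zxm μ 1 SS x with hP
  have eP : EG P := hG.eg_Zx 1 x
  have P0 : ∀ u, 0 ≤ P u := fun u => (Zxm_pos x u).le
  have hn : (0 : ℝ) < Fintype.card J := by
    have : 0 < Fintype.card J := Fintype.card_pos
    positivity
  have hs2 : 0 < s ^ 2 := by positivity
  have hx1 : 0 < 1 - x := by linarith
  set W : (κ ⊕ J → ℝ) → X → ℝ := fun u y => ∑ k ∈ A, U k u * T k y with hW
  -- the Gibbs second moment of `W`
  set Q : (κ ⊕ J → ℝ) → ℝ := fun u => avm μ 1 SS (fun p => W u p.2 ^ 2) u with hQ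
  set a : (κ ⊕ J → ℝ) → ℝ := fun u => avm μ 1 SS (fun p => 1 - ins η p.1) u with ha
  have Q0 : ∀ u, 0 ≤ Q u := fun u => hG.av_nonneg 1 (fun p => sq_nonneg _) u
  have hi0 : ∀ p : ℝ × X, 0 ≤ 1 - ins η p.1 := fun p => by linarith [ins_le η p.1]
  have a0 : ∀ u, 0 ≤ a u := fun u => hG.av_nonneg 1 hi0 u
  have bi1 : Bm fun p : ℝ × X => 1 - ins η p.1 := (Bm.const 1).sub (bm_ins η)
  have eQ : EG Q := by
    have e : Q = fun u => ∑ k ∈ A, ∑ l ∈ A, U k u * U l u *
        avm μ 1 SS (fun p => T k p.2 * T l p.2) u := by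
      funext u
      have e2 : (fun p : ℝ × X => W u p.2 ^ 2) =
          fun p => ∑ k ∈ A, ∑ l ∈ A, (U k u * U l u) * (T k p.2 * T l p.2) := by
        funext p
        simp only [hW, sq, Finset.sum_mul_sum]
        exact Finset.sum_congr rfl fun k _ => Finset.sum_congr rfl fun l _ => by ring
      simp only [hQ]
      rw [e2, hG.av_sum 1 A fun k _ => Bm.sum A fun l _ =>
        ((bm_snd (T k)).mul (bm_snd (T l))).const_mul _]
      refine Finset.sum_congr rfl fun k _ => ?_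
      rw [hG.av_sum 1 A fun l _ => ((bm_snd (T k)).mul (bm_snd (T l))).const_mul _]
      exact Finset.sum_congr rfl fun l _ => H196.av_mul _ _ _ _ _ _
    rw [e]
    exact EG.sum _ fun k hk => EG.sum _ fun l hl => ((hU k hk).mul (hU l hl)).mul
      (hG.eg_av 1 ((bm_snd (T k)).mul (bm_snd (T l))))
  have ea : EG a := hG.eg_av 1 bi1
  have esQ : EG fun u => √(Q u) := by
    refine EG.mono ((EG.const 1).add eQ) eQ.meas.sqrt fun u => ?_
    rw [abs_of_nonneg (Real.sqrt_nonneg _), abs_of_nonneg (by have := Q0 u; linarith)]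
    have h1 := Real.sq_sqrt (Q0 u)
    nlinarith [sq_nonneg (√(Q u) - 1), Real.sqrt_nonneg (Q u)]
  have esa : EG fun u => √(a u) := by
    refine EG.mono ((EG.const 1).add ea) ea.meas.sqrt fun u => ?_
    rw [abs_of_nonneg (Real.sqrt_nonneg _), abs_of_nonneg (by have := a0 u; linarith)]
    have h1 := Real.sq_sqrt (a0 u)
    nlinarith [sq_nonneg (√(a u) - 1), Real.sqrt_nonneg (a u)]
  have eVV : ∀ k, EG (VV μ SS σ η r0 (T k)) := fun k => eg_VV h hη hB r0 (T k)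
  have eVI : ∀ k, EG (VI μ SS σ η r0 (T k)) := fun k => eg_VI h hη hB r0 (T k)
  have esg : ∀ k, EG (avm μ 1 SS (fun p => T k p.2 * sg p.1)) := fun k =>
    hG.eg_av 1 ((bm_snd (T k)).mul bm_sg)
  -- part 1
  set f1 : (κ ⊕ J → ℝ) → ℝ := fun u => ∑ k ∈ A, U k u * avm μ 1 SS (fun p => T k p.2 * sg p.1) u
    with hf1
  have ef1 : EG f1 := EG.sum _ fun k hk => (hU k hk).mul (esg k)
  have p1 : (1 - x) * s ^ 2 * Fintype.card J *
      ∫ u, P u * (∑ k ∈ A, U k u * VI μ SS σ η r0 (T k) u) ∂(gI (κ ⊕ J)) =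
      lam * ∫ u, P u * f1 u ∂(gI (κ ⊕ J)) := by
    simp only [hf1, Finset.mul_sum]
    rw [integral_finsetSum _ fun k hk => (eP.mul ((hU k hk).mul (eVI k))).integrable,
      integral_finsetSum _ fun k hk => (eP.mul ((hU k hk).mul (esg k))).integrable,
      Finset.mul_sum, Finset.mul_sum]
    exact Finset.sum_congr rfl fun k hk => gg_VI h hη hB hσ hc (hU k hk) (hi k hk) (T k)
  have q1 : ∀ u, f1 u ^ 2 ≤ Q u := by
    intro u
    have e : f1 u = avm μ 1 SS (fun p => W u p.2 * sg p.1) u := by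
      have e2 : (fun p : ℝ × X => W u p.2 * sg p.1) =
          fun p => ∑ k ∈ A, U k u * (T k p.2 * sg p.1) := by
        funext p
        simp only [hW, Finset.sum_mul]
        exact Finset.sum_congr rfl fun k _ => by ring
      rw [e2, hG.av_sum 1 A fun k _ => (((bm_snd (T k)).mul bm_sg).const_mul (U k u))]
      exact Finset.sum_congr rfl fun k _ => (H196.av_mul _ _ _ _ _ _).symm
    rw [e]
    refine (hG.av_sq_le 1 ((bm_snd (W u)).mul bm_sg) u).trans (le_of_eq ?_)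
    simp only [hQ]
    congr 1
    funext p
    rw [mul_pow, ← sq_abs (sg p.1), abs_sg, one_pow, mul_one]
  have r1 : |∫ u, P u * f1 u ∂(gI (κ ⊕ J))| ≤
      √(∫ u, P u ∂(gI (κ ⊕ J))) * √(∫ u, P u * Q u ∂(gI (κ ⊕ J))) := by
    rw [← Real.sqrt_mul (integral_nonneg P0)]
    refine Real.abs_le_sqrt ?_
    have h1 := cs_w eP P0 (EG.const 1) ef1
    simp only [one_mul, one_pow, mul_one] at h1
    refine h1.trans (mul_le_mul_of_nonneg_left ?_ (integral_nonneg P0))
    exact integral_mono (eP.mul (ef1.pow 2)).integrable (eP.mul eQ).integrable fun u =>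
      mul_le_mul_of_nonneg_left (q1 u) (P0 u)
  -- part 2
  set f2 : (κ ⊕ J → ℝ) → ℝ := fun u =>
    ∑ k ∈ A, U k u * (VV μ SS σ η r0 (T k) u - VI μ SS σ η r0 (T k) u) with hf2
  have ef2 : EG f2 := EG.sum _ fun k hk => (hU k hk).mul ((eVV k).sub (eVI k))
  set C0 := (|r0| + 1) * (1 + η) with hC0
  have C00 : 0 ≤ C0 := by positivity
  have q2 : ∀ u, |f2 u| ≤ C0 * (√(a u) * √(Q u)) := by
    intro u
    have e : f2 u = VV μ SS σ η r0 (W u) u - VI μ SS σ η r0 (W u) u := by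
      have h1 := VV_sum (c := c) h hη hB r0 A (fun k => U k u) T u
      have h2 := VI_sum (c := c) h hη hB r0 A (fun k => U k u) T u
      rw [← hμ, ← hSS] at h1 h2
      simp only [hf2, hW]
      rw [h1, h2, ← Finset.sum_sub_distrib]
      exact Finset.sum_congr rfl fun k _ => by ring
    rw [e]
    refine (VV_sub_VI h hη hB hσ r0 u (W u)).trans ?_
    refine mul_le_mul_of_nonneg_left ?_ C00
    rw [← Real.sqrt_mul (a0 u)]
    refine Real.le_sqrt_of_sq_le ?_
    refine (av_cs hG 1 bi1 (bm_snd fun y => |W u y|) u).trans (le_of_eq ?_)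
    simp only [ha, hQ, sq_abs]
    congr 2
    funext p
    unfold ins
    split_ifs <;> norm_num
  have r2 : |∫ u, P u * f2 u ∂(gI (κ ⊕ J))| ≤
      C0 * (√(∫ u, P u * a u ∂(gI (κ ⊕ J))) * √(∫ u, P u * Q u ∂(gI (κ ⊕ J)))) := by
    have h1 : |∫ u, P u * f2 u ∂(gI (κ ⊕ J))| ≤
        ∫ u, C0 * (P u * (√(a u) * √(Q u))) ∂(gI (κ ⊕ J)) := by
      refine abs_integral_le_integral_abs.trans ?_
      refine integral_mono (eP.mul ef2).integrable.abs
        ((eP.mul (esa.mul esQ)).const_mul C0).integrable fun u => ?_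
      simp only
      rw [abs_mul, abs_of_nonneg (P0 u)]
      have := mul_le_mul_of_nonneg_left (q2 u) (P0 u)
      linarith
    refine h1.trans ?_
    rw [integral_const_mul]
    refine mul_le_mul_of_nonneg_left ?_ C00
    rw [← Real.sqrt_mul (integral_nonneg fun u => mul_nonneg (P0 u) (a0 u))]
    refine Real.le_sqrt_of_sq_le ?_
    refine (cs_w eP P0 esa esQ).trans (le_of_eq ?_)
    simp only [Real.sq_sqrt (a0 _), Real.sq_sqrt (Q0 _)]
  -- together
  have e3 : ∫ u, P u * (∑ k ∈ A, U k u * VV μ SS σ η r0 (T k) u) ∂(gI (κ ⊕ J)) =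
      (∫ u, P u * (∑ k ∈ A, U k u * VI μ SS σ η r0 (T k) u) ∂(gI (κ ⊕ J))) +
        ∫ u, P u * f2 u ∂(gI (κ ⊕ J)) := by
    rw [← integral_add
      (eP.mul (EG.sum _ fun k hk => (hU k hk).mul (eVI k))).integrable (eP.mul ef2).integrable]
    refine integral_congr_ae (Eventually.of_forall fun u => ?_)
    simp only [hf2]
    rw [← mul_add, ← Finset.sum_add_distrib]
    congr 1
    exact Finset.sum_congr rfl fun k _ => by ring
  have e4 : ∫ u, P u * (∑ k ∈ A, U k u * VI μ SS σ η r0 (T k) u) ∂(gI (κ ⊕ J)) =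
      lam / ((1 - x) * s ^ 2 * Fintype.card J) * ∫ u, P u * f1 u ∂(gI (κ ⊕ J)) := by
    have h1 : (1 - x) * s ^ 2 * Fintype.card J ≠ 0 := by positivity
    rw [div_mul_eq_mul_div, eq_div_iff h1, ← p1]
    ring
  rw [e3, e4]
  refine (abs_add_le _ _).trans ?_
  rw [abs_mul, abs_of_nonneg (by positivity : 0 ≤ lam / ((1 - x) * s ^ 2 * Fintype.card J))]
  have h5 := mul_le_mul_of_nonneg_left r1
    (by positivity : 0 ≤ lam / ((1 - x) * s ^ 2 * Fintype.card J))
  calc lam / ((1 - x) * s ^ 2 * Fintype.card J) * |∫ u, P u * f1 u ∂(gI (κ ⊕ J))| +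
        |∫ u, P u * f2 u ∂(gI (κ ⊕ J))|
      ≤ lam / ((1 - x) * s ^ 2 * Fintype.card J) * (√(∫ u, P u ∂(gI (κ ⊕ J))) *
          √(∫ u, P u * Q u ∂(gI (κ ⊕ J)))) +
        C0 * (√(∫ u, P u * a u ∂(gI (κ ⊕ J))) * √(∫ u, P u * Q u ∂(gI (κ ⊕ J)))) :=
        add_le_add h5 r2
    _ = _ := by ring

/-- a function of the coordinates in `K` does not depend on a coordinate off `K` -/
lemma dep_update {ι : Type} [Fintype ι] [DecidableEq ι] {K : Finset ι} {Q : (ι → ℝ) → ℝ}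
    (hQ : H646.Dep K Q) {e : ι} (he : e ∉ K) (u : ι → ℝ) (r : ℝ) :
    Q (Function.update u e r) = Q u := by
  rw [← hQ (Function.update u e r) u]
  congr 1
  funext e'
  unfold H646.glue
  split_ifs with h1
  · have : e' ≠ e := fun h => he (h ▸ h1)
    rw [Function.update_of_ne this]
  · rfl

lemma bm_eg {ι : Type} [Fintype ι] {Q : (ι → ℝ) → ℝ} (hQ : H646.BM Q) : EG Q := by
  obtain ⟨C, hC⟩ := hQ.bd
  exact EG.of_bdd hQ.meas hC

/-- the mean in the law with density proportional to `Z^x` -/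
noncomputable def Ea (μ : Measure (ℝ × X)) (SS : κ ⊕ J → ℝ × X → ℝ) (x : ℝ)
    (f : (κ ⊕ J → ℝ) → ℝ) : ℝ :=
  H646.ex (fun _ : κ ⊕ J => gaussianReal 0 1) (Zxm μ 1 SS x) f

lemma Ea_eq (μ : Measure (ℝ × X)) (SS : κ ⊕ J → ℝ × X → ℝ) (x : ℝ)
    (f : (κ ⊕ J → ℝ) → ℝ) : Ea μ SS x f =
      (∫ u, Zxm μ 1 SS x u * f u ∂(gI (κ ⊕ J))) / ∫ u, Zxm μ 1 SS x u ∂(gI (κ ⊕ J)) := rfl

/-- **The dual norm bound.** -/
theorem gg_dual [Nonempty J] (h : 0 < lam) (hη : 0 ≤ η) (hB : AB S0 σ s η M0)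
    (hσ : ∀ j x, σ j x ^ 2 = 1) {r0 : ℝ} (hx : x < 1) (hs : s ≠ 0)
    (hc : c = s ^ 2 * Fintype.card J * (1 - (1 - x) * r0)) {K : Type*} (A : Finset K)
    {U : K → (κ ⊕ J → ℝ) → ℝ} (hU : ∀ k ∈ A, EG (U k))
    (hi : ∀ k ∈ A, ∀ j u r, U k (Function.update u (Sum.inr j) r) = U k u) (T : K → X → ℝ) :
    |Ea (muA X lam η c) (SA S0 σ s η) x
        (fun u => ∑ k ∈ A, U k u * VV (muA X lam η c) (SA S0 σ s η) σ η r0 (T k) u)| ≤
      (lam / ((1 - x) * s ^ 2 * Fintype.card J) + (|r0| + 1) * (1 + η) *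
          √(Ea (muA X lam η c) (SA S0 σ s η) x
            (avm (muA X lam η c) 1 (SA S0 σ s η) fun p => 1 - ins η p.1))) *
      √(Ea (muA X lam η c) (SA S0 σ s η) x
        (fun u => avm (muA X lam η c) 1 (SA S0 σ s η) (fun p => (∑ k ∈ A, U k u * T k p.2) ^ 2) u))
      := by
  have hG := gm (c := c) h hη hB
  have hD : 0 < ∫ u, Zxm (muA X lam η c) 1 (SA S0 σ s η) x u ∂(gI (κ ⊕ J)) :=
    integral_exp_pos (hG.eg_Zx 1 x).integrable
  have key := gg_dual_int h hη hB hσ hx hs hc A hU hi T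
  simp only [Ea_eq]
  set D := ∫ u, Zxm (muA X lam η c) 1 (SA S0 σ s η) x u ∂(gI (κ ⊕ J)) with hDd
  rw [abs_div, abs_of_pos hD, Real.sqrt_div' _ hD.le, Real.sqrt_div' _ hD.le,
    div_le_iff₀ hD]
  have hsD : 0 < √D := Real.sqrt_pos.2 hD
  have hDD : √D * √D = D := Real.mul_self_sqrt hD.le
  refine key.trans (le_of_eq ?_)
  set A1 := √(∫ u, Zxm (muA X lam η c) 1 (SA S0 σ s η) x u *
    avm (muA X lam η c) 1 (SA S0 σ s η) (fun p => 1 - ins η p.1) u ∂(gI (κ ⊕ J)))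
  set B1 := √(∫ u, Zxm (muA X lam η c) 1 (SA S0 σ s η) x u *
    avm (muA X lam η c) 1 (SA S0 σ s η) (fun p => (∑ k ∈ A, U k u * T k p.2) ^ 2) u
      ∂(gI (κ ⊕ J)))
  nth_rewrite 4 [← hDD]
  field_simp

end Vale.Agent.P146.H475
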